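import Crest.Agent.PVb.Lib.PT.All

/-!
# `Solvable`: polynomial-time search problems and a loop combinator with clipping

`Solvable Valid Spec` says that one polynomial-time function meets `Spec` on every valid input.
Loops only need a size bound on the states that satisfy the invariant (valid inputs): the generic
combinator `Solvable.iter` clips oversized states, so nothing has to be proved for invalid inputs.
-/

set_option autoImplicit false

namespace Crest.Agent.X37

open Crest.Agent.Lib.PT

universe u v w

variable {α : Type u} {β : Type v} {σ : Type w} [Enc α] [Enc β] [Enc σ]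

/-- One polynomial-time function meets `Spec` on all valid inputs. -/
def Solvable (Valid : α → Prop) (Spec : α → β → Prop) : Prop :=
  ∃ f : α → β, PT f ∧ ∀ a, Valid a → Spec a (f a)

theorem Solvable.mono {V V' : α → Prop} {S S' : α → β → Prop} (h : Solvable V S)
    (hV : ∀ a, V' a → V a) (hS : ∀ a b, V' a → S a b → S' a b) : Solvable V' S' := by
  obtain ⟨f, hf, h⟩ := h
  exact ⟨f, hf, fun a ha => hS a _ ha (h a (hV a ha))⟩

theorem pt_sz {f : α → β} (hf : PT f) : PT fun a => sz (f a) :=
  PT.of_eq (g := fun a => (toBits (f a)).length) (by fun_prop) fun a => length_toBits _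

/-- Every polynomially bounded function is below a polynomial-time, polynomially bounded one. -/
theorem exists_pt_bound {B : α → ℕ} (hB : PB B) :
    ∃ B' : α → ℕ, PT B' ∧ PB B' ∧ ∀ a, B a ≤ B' a := by
  obtain ⟨c, k, h⟩ := hB
  refine ⟨fun a => c * (sz a) ^ k, ?_, ?_, h⟩
  · have h1 : PT fun a : α => sz a := pt_sz PT.id
    exact PT.nat_mul (PT.const _) (PT.nat_pow h1 (PT.const _) (PB.const _))
  · exact (PB.const c).mul (PB.sz_self.pow k)

/-- Iteration with clipping: the result is the plain iteration as long as all states are small. -/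
theorem exists_pt_iterate {n : α → ℕ} {s : α → σ} {f : α → σ → σ} (hn : PT n) (hb : PB n)
    (hs : PT s) (hf : PT fun p : α × σ => f p.1 p.2) {B : α → ℕ} (hB : PB B) :
    ∃ F : α → σ, PT F ∧ ∀ a, (∀ k, k ≤ n a → sz ((f a)^[k] (s a)) ≤ B a) →
      F a = (f a)^[n a] (s a) := by
  classical
  obtain ⟨B', hB1, hB2, hB3⟩ := exists_pt_bound hB
  let g : α → σ → σ := fun a c => if sz (f a c) ≤ B' a then f a c else s a
  have hg : PT fun p : α × σ => g p.1 p.2 := by
    have h1 : PT fun p : α × σ => sz (f p.1 p.2) := pt_sz hf
    have h2 : PT fun p : α × σ => B' p.1 := hB1.comp (PT.fst PT.id)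
    have h3 : PT fun p : α × σ => s p.1 := hs.comp (PT.fst PT.id)
    exact PT.ite (PT.nat_le h1 h2) hf h3
  refine ⟨fun a => (g a)^[n a] (s a), ?_, fun a h => ?_⟩
  · refine PT.iterate hn hb hs hg (B := fun a => B' a + sz (s a)) (hB2.add (PB.sz hs)) ?_
    intro a k _
    cases k with
    | zero => simp
    | succ k =>
      rw [Function.iterate_succ_apply']
      simp only [g]
      split_ifs with h <;> omega
  · have key : ∀ k, k ≤ n a → (g a)^[k] (s a) = (f a)^[k] (s a) := by
      intro k
      induction k with
      | zero => intro _; rfl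
      | succ k ih =>
        intro hk
        rw [Function.iterate_succ_apply', ih (by omega)]
        have := h (k + 1) hk
        rw [Function.iterate_succ_apply'] at this ⊢
        simp only [g]
        rw [if_pos (this.trans (hB3 a))]
    exact key _ le_rfl

/-- The loop combinator. `I a k c`: `c` is an admissible state after `k` rounds on input `a`. -/
theorem Solvable.iter {V : α → Prop} (I : α → ℕ → σ → Prop) {n : α → ℕ} (hn : PT n) (hb : PB n)
    (h0 : Solvable V fun a c => I a 0 c)
    {f : α → σ → σ} (hf : PT fun p : α × σ => f p.1 p.2)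
    (hI : ∀ a k c, V a → k < n a → I a k c → I a (k + 1) (f a c))
    {B : α → ℕ} (hB : PB B) (hsz : ∀ a k c, V a → k ≤ n a → I a k c → sz c ≤ B a) :
    Solvable V fun a c => I a (n a) c := by
  obtain ⟨s, hs, h0⟩ := h0
  obtain ⟨F, hF, hF'⟩ := exists_pt_iterate hn hb hs hf hB
  refine ⟨F, hF, fun a ha => ?_⟩
  have key : ∀ k, k ≤ n a → I a k ((f a)^[k] (s a)) := by
    intro k
    induction k with
    | zero => intro _; exact h0 a ha
    | succ k ih =>
      intro hk
      rw [Function.iterate_succ_apply']
      exact hI a k _ ha (by omega) (ih (by omega))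
  rw [hF' a fun k hk => hsz a k _ ha hk (key k hk)]
  exact key _ le_rfl

/-- Sequential composition: solve `S₁`, then solve `S₂` on the input paired with the answer. -/
theorem Solvable.bind {γ : Type w} [Enc γ] {V : α → Prop} {S₁ : α → β → Prop}
    {S₂ : α → γ → Prop} (h₁ : Solvable V S₁)
    (h₂ : Solvable (fun p : α × β => V p.1 ∧ S₁ p.1 p.2) fun p c => S₂ p.1 c) :
    Solvable V S₂ := by
  obtain ⟨f, hf, h₁⟩ := h₁
  obtain ⟨g, hg, h₂⟩ := h₂
  exact ⟨fun a => g (a, f a), hg.comp (PT.pair PT.id hf), fun a ha => h₂ (a, f a) ⟨ha, h₁ a ha⟩⟩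

end Crest.Agent.X37
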