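import Crest.Agent.X37.Geo.Claim
import Crest.Agent.X37.LB.LemmaB
import Crest.Agent.X37.Gr.Peb
import Crest.Agent.X37.Inner.Main
import Crest.Agent.X37.Outer.Main
import Crest.Agent.X37.KS.Main
import Crest.Agent.X37.Hv.Halve
import Crest.Agent.X37.Half.Cascade
import Crest.Agent.X37.IO.Main
import Crest.Agent.X37.IO.Ex

/-!
# Row 37 (thin trees): the chain of all parts
-/

set_option autoImplicit false

namespace Crest.Agent.X37

/-- the main lemma -/
theorem mainStatement : Outer.MainStatement :=
  Outer.main_of (LB.lemmaB_of (by norm_num) Geo.claim) Gr.greedyStatement Inner.innerStatement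

/-- the core statement -/
theorem coreStatement : IO.CoreStatement :=
  Half.core_of_half (Hv.half_of mainStatement KS.ksStatement)

end Crest.Agent.X37
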